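import Vale.Agent.P181.GN.H513.CoreAll
import Vale.Agent.P181.GN.H457.Small

set_option autoImplicit false

/-!
# P181, line GN: every `a ≤ b` and every shape with `P w ≤ b ^ 2`, no hypothesis
-/

namespace Vale.Agent.P181.GN.H513

open Vale.Agent.P181.GN

theorem smallD2 : O2.H457.SmallD2 := H457.smallD2_of core_closed

/-- **Foulkes' inequality for all `a ≤ b` and all `λ` with `P w ≤ b ^ 2`.** -/
theorem uniAll : DX.H556.UniAll := H457.uniAll_of_core core_closed

end Vale.Agent.P181.GN.H513
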