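import Vale.Agent.P181.GN.H856.Core
import Vale.Agent.P181.GN.H242.Q1
import Vale.Agent.P181.GN.H674.Q2
import Vale.Agent.P181.GN.H180.Q3
import Vale.Agent.P181.GN.H312.Q4
import Vale.Agent.P181.GN.H820.Q4s
import Vale.Agent.P181.GN.H820.FD
import Vale.Agent.P181.GN.H283.Q5
import Vale.Agent.P181.GN.H317.Q6a
import Vale.Agent.P181.GN.H481.Q6b
import Vale.Agent.P181.GN.H89.Fin
import Vale.Agent.P181.GN.H787.Q8

set_option autoImplicit false

/-!
# P181, line GN: the core, no hypothesis
-/

namespace Vale.Agent.P181.GN.H513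

open Vale.Agent.P181.GN

/-- **The core of line GN.** -/
theorem core_closed : Core :=
  H856.core H242.q1 H674.q2 H180.q3 H312.q4 H820.q4s H283.q5
    (H317.q6_of H317.q6a (H481.q6b H820.fd (H787.q8m H820.fd))) H89.q7 (H787.q8 H820.fd)

end Vale.Agent.P181.GN.H513
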